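import Vale.Agent.P011.D4Y.H659.StepBI

/-!
Block D4Y (helper659): the plane of the standard singular vector.
-/

open NumberField Topology

set_option linter.unusedSectionVars false

namespace Vale.Agent.P011.D4Y

open Vale.Agent.P011.MPQ Vale.Agent.P011.D4 Vale.Agent.P011.D4.Oct Vale.Agent.P011.E6
open Vale.Agent.P011.D4X Vale.Agent.P011.D4X.H691

namespace H659

section step

variable {k L E : Type} [Field k] [NumberField k] [Field L] [Field E] [Algebra k L] [Algebra k E]
  [Algebra L E] [IsScalarTower k L E] [NeZero (2 : E)] {ρ σ ι : E ≃ₐ[k] E} {α : E}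
  {a b c : kˣ} {q : Lˣ} (H : HyI ρ σ ι α a b c q) {P : Subgroup Lˣ}
  (hP : ∀ κ : Lˣ, (∀ w : L →+* ℝ, w (algebraMap k L a) < 0 → 0 < w (κ : L)) → κ ∈ P)

include H hP

/-- The plane of the standard singular vector. -/
theorem base_PPI : PPI P ρ σ ι α q (ep α * oup E (gl : Oct a b c)) := by
  have h1 := line1PI (c := c) H hP (fun b' c' H' s t h g1 g2 ν g3 g4 =>
    exists_line_fix H' s t h g1 g2 g3 g4) 1 0 (Or.inl one_ne_zero) (map_one ι) (map_zero ι)
    (fun W _ => by
      rw [map_one, map_zero, mul_zero, mul_zero, zero_div, sub_zero, mul_one, map_one,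
        Complex.one_re]
      exact one_pos)
  rwa [one_smul, zero_smul, add_zero, ← oup_gl] at h1

end step

end H659

end Vale.Agent.P011.D4Y
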