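import Vale.Agent.P011.D4Y.H659.HhI
import Vale.Agent.P011.D4Y.H369.Gen2

/-!
Block D4Y (helper659): the stabiliser of the standard plane, elements with multiplier in `P`.
-/

open NumberField Topology

set_option linter.unusedSectionVars false

namespace Vale.Agent.P011.D4Y

open Vale.Agent.P011.MPQ Vale.Agent.P011.D4 Vale.Agent.P011.D4.Oct Vale.Agent.P011.D4.Em
open Vale.Agent.P011.D4X
open Vale.Agent.P011.D4X.H369 (xj line_xj Jm_xj norm_sim norm_xj norm_mo Jm_smul' xj_smul xj_add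
  tri_ep_xj tri_xj_em t0_xj al_ne ext_tQ tQ_t0 ep_eq exists_n)
open Vale.Agent.P011.E6 (tripO tripO_oup tripO_omap)
open Vale.Agent.P011.D4.B.FI (fixI fixI_top mem_fixI)

section main

variable {k L E : Type} [Field k] [NumberField k] [Field L] [NumberField L] [Field E]
  [Algebra k L] [Algebra k E] [Algebra L E] [IsScalarTower k L E] [NeZero (2 : E)]
  {ρ σ ι : E ≃ₐ[k] E} {α : E} {a b c : kˣ} {q : Lˣ}

omit [NumberField L] in
/-- The stabiliser of the standard plane is generated by elements of centralisers. -/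
theorem gen2PI (H : HyI ρ σ ι α a b c q) {P : Subgroup Lˣ} {z : ATI ρ σ ι α a b c q} {t : E}
    (hz : z.1 (ep α) = t • ep α) (hzP : kapI z ∈ P) : z ∈ stabsPI P ρ σ ι α a b c q := by
  have h2 : (2 : k) ≠ 0 := two_ne_zero
  have : NeZero (2 : k) := ⟨h2⟩
  have n2 : (2 : E) ≠ 0 := NeZero.ne 2
  have hα0 : α ≠ 0 := al_ne H.α2
  obtain ⟨κ, hκ⟩ := z.2.1
  have ht : t ≠ 0 := by
    rintro rfl
    rw [zero_smul] at hz
    have h5 : (ep α : OctL E a b c) = 0 := z.1.injective (by rw [hz, map_zero])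
    have h6 : (1 / 2 : E) = 0 := congrArg (fun z : OctL E a b c => z.fst.re) h5
    exact (one_div_ne_zero n2) h6
  have hstd := Oct.trip_std (a := a) (b := b) (c := c)
  have hst0 : tQ E hstd = t0 E a b c :=
    tQ_t0 h2 (p := 1) (r := 0) (by rfl) (by norm_num) hstd
  -- the transported involution
  have zi : ∀ x, z.1 (z.1⁻¹ x) = x := fun x => by
    rw [← LinearEquiv.mul_apply, mul_inv_cancel]; rfl
  obtain ⟨T, hT⟩ : ∃ T, T = z.1 * t0 E a b c * z.1⁻¹ := ⟨_, rfl⟩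
  have hTa : ∀ x, T x = z.1 (t0 E a b c (z.1⁻¹ x)) := fun x => by rw [hT]; rfl
  have zc : ∀ x, z.1⁻¹ (z.1 x) = x := fun x => by
    rw [← LinearEquiv.mul_apply, inv_mul_cancel]; rfl
  have hK0 : ρ (algebraMap L E (κ : L)) ≠ 0 :=
    (map_ne_zero ρ).mpr ((map_ne_zero _).mpr κ.ne_zero)
  have hiK : ∀ x y, ρ (algebraMap L E (κ : L)) • z.1⁻¹ (tri ρ x y) =
      tri ρ (z.1⁻¹ x) (z.1⁻¹ y) := fun x y => by
    apply z.1.injective
    rw [map_smul, zi, hκ, zi, zi]
  have hiJ : ∀ x, z.1⁻¹ (Jm ρ σ α q x) = Jm ρ σ α q (z.1⁻¹ x) := fun x => by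
    apply z.1.injective
    rw [zi, z.2.2.1, zi]
  have hiI : ∀ x, z.1⁻¹ (Im ι x) = Im ι (z.1⁻¹ x) := fun x => by
    apply z.1.injective
    rw [zi, z.2.2.2, zi]
  have hTm : T ∈ GTI ρ σ ι α a b c q := by
    refine ⟨fun x y => ?_, fun x => ?_, fun x => ?_⟩
    · apply smul_right_injective _ hK0
      change ρ (algebraMap L E (κ : L)) • T (tri ρ x y) =
        ρ (algebraMap L E (κ : L)) • tri ρ (T x) (T y)
      rw [hTa, ← map_smul, ← map_smul, hiK, t0_tri, hκ, ← hTa, ← hTa]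
    · rw [hTa, hTa, hiJ, t0_Jm, z.2.2.1]
    · rw [hTa, hTa, hiI, H369.t0_Im, z.2.2.2]
  have hT1 : T ≠ 1 := by
    intro h
    rw [hT, mul_inv_eq_one, mul_eq_left] at h
    have h3 := congrArg (fun f : OctL E a b c ≃ₗ[E] OctL E a b c => (f gl).snd.re) h
    change -(1 : E) = 1 at h3
    exact n2 (by linear_combination -h3)
  have h00 : t0 E a b c * t0 E a b c = 1 := LinearEquiv.ext fun x => t0_t0 x
  have hTT : T * T = 1 := by
    rw [hT]
    calc z.1 * t0 E a b c * z.1⁻¹ * (z.1 * t0 E a b c * z.1⁻¹) =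
        z.1 * (t0 E a b c * t0 E a b c) * z.1⁻¹ := by group
      _ = 1 := by rw [h00, mul_one, mul_inv_cancel]
  have hTz : T * z.1 = z.1 * t0 E a b c := by rw [hT, inv_mul_cancel_right]
  have hTe : T (ep α) = ep α := by
    have e1 : T (z.1 (ep α)) = z.1 (t0 E a b c (ep α)) := congrArg (fun f => f (ep α)) hTz
    have e2 : t0 E a b c (ep α : OctL E a b c) = ep α := by
      apply Oct.ext
      · rfl
      · exact neg_zero
    rw [e2, hz, map_smul] at e1
    exact smul_right_injective _ ht e1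
  obtain ⟨b', c', j, l, h, hT'⟩ := exists_tQI H hTm hT1 hTT hTe
  rw [hT'] at hTz
  -- the comparison of the two planes
  obtain ⟨Z, hZ⟩ : ∃ Z : OctL E a b c ≃ₗ[E] OctL E a b' c', ∀ x, tripO E h (Z x) = z.1 x :=
    ⟨z.1.trans (tripO E h).symm, fun x => (tripO E h).apply_symm_apply _⟩
  have hZs : ∀ x, (tripO E h).symm (z.1 x) = Z x := fun x => by
    rw [← hZ, LinearEquiv.symm_apply_apply]
  obtain ⟨s, hs0, -, hιs, hst', hst⟩ := H369.zmain H.ρ3 H.α2 H.ρα H.σα H.ια (q := q) (Z := Z)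
    (κ := ρ (algebraMap L E κ)) (t := t)
    (fun x y => (tripO E h).injective (by
      rw [hZ, hκ, map_smul, tripO_tri, hZ, hZ]))
    hK0
    (fun x => (tripO E h).injective (by rw [hZ, z.2.2.1, tripO_Jm, hZ]))
    (fun x => (tripO E h).injective (by
      rw [hZ]
      have e1 : z.1 (t0 E a b c x) = tQ E h (z.1 x) := congrArg (fun f => f x) hTz.symm
      rw [e1]
      change tripO E h (t0 E a b' c' ((tripO E h).symm (z.1 x))) = _
      rw [hZs]))
    (fun x => (tripO E h).injective (by rw [hZ, z.2.2.2, H369.tripO_Im, hZ]))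
    ((tripO E h).injective (by
      rw [hZ, hz, map_smul]
      congr 1
      rw [ep_eq, ep_eq, map_add, map_smul, map_smul, tripO_oup, tripO_oup,
        B.emb_one, B.emb_gi]))
  obtain ⟨p, r, hpr⟩ := H369.exists_pr H hs0 hιs hst' hst
  have hD : p ^ 2 - (a : k) * r ^ 2 ≠ 0 := by
    intro h
    rw [h, mul_zero] at hpr
    exact b'.ne_zero hpr.symm
  obtain ⟨j', hj'⟩ : ∃ j' : Oct a b c, j' = ⟨⟨0, 0, p, r⟩, 0⟩ := ⟨_, rfl⟩
  have hsj : star j' = -j' := by
    rw [hj']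
    apply ext8 <;> simp
  have hij : dot gi j' = 0 := by
    rw [B.dot_coord, hj']
    simp [gi]
  have hnj : Oct.norm j' = Oct.norm j := by
    rw [B.norm_of_sq h.sj h.jj, B.norm_coord, hj', ← hpr]
    simp
    ring
  obtain ⟨n, hn, b₂, c₂, u, l₂, hu, hnu⟩ := exists_n H.hdiv h.sj hsj h.ij hij hnj
  have h₁ : Trip a b' c' gi j' (n.1.1 l) := by
    have := Oct.trip_map h (Φ := n.1.1) n.1.2
    rwa [mem_fixI.mp n.2, hn] at this
  have hm := H68.extE_memI (ρ := ρ) (σ := σ) (ι := ι) (α := α) (q := q) n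
  obtain ⟨nA, hnA⟩ : ∃ nA : ATI ρ σ ι α a b c q, nA.1 = extE E n.1.1 :=
    ⟨⟨_, ⟨1, fun x y => by
      rw [Units.val_one, map_one, map_one, one_smul]
      exact hm.1 x y⟩, hm.2⟩, rfl⟩
  have hk : kapI nA = 1 := kapI_eq fun x y => by
    rw [Units.val_one, map_one, map_one, one_smul, hnA]
    exact hm.1 x y
  have m1 : nA ∈ stabsPI P ρ σ ι α a b c q := by
    refine Subgroup.subset_closure ⟨by rw [hk]; exact one_mem P, b₂, c₂, u, l₂, hu, ?_⟩
    change nA.1 * tQ E hu = tQ E hu * nA.1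
    rw [hnA]
    exact ext_tQ h2 n hu hu hnu
  have m2 : nA * z ∈ stabsPI P ρ σ ι α a b c q := by
    refine Subgroup.subset_closure
      ⟨by rw [kapI_mul, hk, one_mul]; exact hzP, b, c, gj, gl, hstd, ?_⟩
    change nA.1 * z.1 * tQ E hstd = tQ E hstd * (nA.1 * z.1)
    rw [hst0, mul_assoc, ← hTz, ← mul_assoc, hnA, ext_tQ h2 n h h₁ hn,
      tQ_t0 h2 hj' hD h₁, mul_assoc]
  have m3 : z = nA⁻¹ * (nA * z) := by rw [inv_mul_cancel_left]
  rw [m3]
  exact mul_mem (inv_mem m1) m2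

end main

end Vale.Agent.P011.D4Y
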