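import Vale.Agent.P011.D4Y.H691.Tr
import Vale.Agent.P011.D4Y.H63.RamOdd
import Vale.Agent.P011.D4Y.H69.Path
import Vale.Agent.P011.D4Y.H68.Nf
import Vale.Agent.P011.D4X.H659.Step

/-!
Block D4Y (helper659): the subgroup generated by the elements of the centralisers whose multiplier
lies in a given subgroup, and the planes of neighbours.
-/

open NumberField Topology

set_option linter.unusedSectionVars false

namespace Vale.Agent.P011.D4Y

open Vale.Agent.P011.MPQ Vale.Agent.P011.D4 Vale.Agent.P011.D4.Oct Vale.Agent.P011.E6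
open Vale.Agent.P011.D4X Vale.Agent.P011.D4X.H691

/-- The subgroup generated by the elements with multiplier in `P` of the centralisers of the
involutions of the standard plane. -/
def stabsPI {k L E : Type} [Field k] [Field L] [Field E] [Algebra k L] [Algebra k E] [Algebra L E]
    [IsScalarTower k L E] [NeZero (2 : E)] (P : Subgroup Lˣ) (ρ σ ι : E ≃ₐ[k] E) (α : E)
    (a b c : kˣ) (q : Lˣ) : Subgroup (ATI ρ σ ι α a b c q) :=
  Subgroup.closure {z | kapI z ∈ P ∧ ∃ (b' c' : kˣ) (j l : Oct a b c) (h : Trip a b' c' gi j l),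
    z ∈ stabI ρ σ ι α q h}

/-- The element is the image by `ρ` of an element of `L` which is positive at the real places with
`a < 0`. -/
def PosI {k : Type} (L : Type) {E : Type} [Field k] [Field L] [Field E] [Algebra k L] [Algebra k E]
    [Algebra L E] (ρ : E ≃ₐ[k] E) (a : kˣ) (r : E) : Prop :=
  ∃ t : L, ρ (algebraMap L E t) = r ∧ ∀ w : L →+* ℝ, w (algebraMap k L a) < 0 → 0 < w t

section pos

variable {k L E : Type} [Field k] [Field L] [Field E] [Algebra k L] [Algebra k E] [Algebra L E]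
  {ρ : E ≃ₐ[k] E} {a : kˣ}

theorem PosI.mul {r s : E} (hr : PosI L ρ a r) (hs : PosI L ρ a s) : PosI L ρ a (r * s) := by
  obtain ⟨t, ht, h1⟩ := hr
  obtain ⟨u, hu, h2⟩ := hs
  exact ⟨t * u, by rw [map_mul, map_mul, ht, hu], fun w hw => by
    rw [map_mul]
    exact mul_pos (h1 w hw) (h2 w hw)⟩

theorem PosI.inv {r : E} (hr : PosI L ρ a r) : PosI L ρ a r⁻¹ := by
  obtain ⟨t, ht, h1⟩ := hr
  exact ⟨t⁻¹, by rw [map_inv₀, map_inv₀, ht], fun w hw => by
    rw [map_inv₀]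
    exact inv_pos.2 (h1 w hw)⟩

end pos

namespace H659

section alg

variable {k L E : Type} [Field k] [Field L] [Field E] [Algebra k L] [Algebra k E] [Algebra L E]
  [IsScalarTower k L E] [NeZero (2 : k)] [NeZero (2 : E)] {ρ σ ι : E ≃ₐ[k] E}
  {α : E} {a b c : kˣ} {q : Lˣ} {P : Subgroup Lˣ}

theorem mem_stabsPI {z : ATI ρ σ ι α a b c q} (hκ : kapI z ∈ P) {b' c' : kˣ} {j l : Oct a b c}
    (h : Trip a b' c' gi j l) (hz : z ∈ stabI ρ σ ι α q h) : z ∈ stabsPI P ρ σ ι α a b c q :=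
  Subgroup.subset_closure ⟨hκ, b', c', j, l, h, hz⟩

theorem mem_stabsPI0 {z : ATI ρ σ ι α a b c q} (hκ : kapI z ∈ P)
    (hz : z ∈ stab0I ρ σ ι α a b c q) : z ∈ stabsPI P ρ σ ι α a b c q := by
  rw [← stabI_std (trip_std : Trip a b c (gi : Oct a b c) gj gl)] at hz
  exact mem_stabsPI hκ _ hz

theorem cjAI_mem_stabsPI {b1 c1 : kˣ} {j1 l1 : Oct a b c} (h1 : Trip a b1 c1 gi j1 l1)
    {z : ATI ρ σ ι α a b1 c1 q} (hz : z ∈ stabsPI P ρ σ ι α a b1 c1 q) :
    cjAI ρ σ ι α q h1 z ∈ stabsPI P ρ σ ι α a b c q := by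
  have key : stabsPI P ρ σ ι α a b1 c1 q ≤
      (stabsPI P ρ σ ι α a b c q).comap
        (cjAI ρ σ ι α q h1 : ATI ρ σ ι α a b1 c1 q →* ATI ρ σ ι α a b c q) := by
    rw [stabsPI, Subgroup.closure_le]
    rintro z ⟨hκ, b2, c2, j2, l2, h2, hz⟩
    obtain ⟨z0, hz0, rfl⟩ := exists_of_mem_stabI h2 hz
    obtain ⟨j, l, h, hh⟩ := exists_comp (E := E) h1 h2
    change cjAI ρ σ ι α q h1 (cjAI ρ σ ι α q h2 z0) ∈ stabsPI P ρ σ ι α a b c q
    rw [← cjAI_comp h1 h2 h hh]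
    refine mem_stabsPI ?_ h ((cjAI_mem_stabI h).2 hz0)
    rw [kapI_cjAI] at hκ ⊢
    exact hκ
  exact key hz

theorem kap_ne (ρ : E ≃ₐ[k] E) (κ : Lˣ) : ρ (algebraMap L E (κ : L)) ≠ 0 :=
  (map_ne_zero ρ).2 ((map_ne_zero (algebraMap L E)).2 κ.ne_zero)

theorem tri_kap {z : OctL E a b c ≃ₗ[E] OctL E a b c} {κ : Lˣ} (h : IsKapI ρ z κ)
    (x y : OctL E a b c) : tri ρ (z x) (z y) = (ρ (algebraMap L E (κ : L)))⁻¹ • z (tri ρ x y) := by
  rw [h, smul_smul, inv_mul_cancel₀ (kap_ne ρ κ), one_smul]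

theorem pt_ATI (z : ATI ρ σ ι α a b c q) {v : OctL E a b c} (hv : Pt ρ v) : Pt ρ (z.1 v) := by
  refine ⟨fun h => hv.1 (z.1.injective (h.trans (map_zero z.1).symm)), ?_⟩
  rw [tri_kap (isKapI_kapI z), hv.2, map_zero, smul_zero]

theorem nb_ATI (z : ATI ρ σ ι α a b c q) {v w : OctL E a b c} (h : Nb ρ v w) :
    Nb ρ (z.1 v) (z.1 w) := by
  constructor
  · rw [tri_kap (isKapI_kapI z), h.1, map_zero, smul_zero]
  · rw [tri_kap (isKapI_kapI z), h.2, map_zero, smul_zero]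

theorem imul (t : E) (x : OctL E a b c) : Im ι (t • x) = ι t • Im ι x := invo_smul t x

theorem trip_Im {b' c' : kˣ} {j l : Oct a b c} (h : Trip a b' c' gi j l) (x : OctL E a b' c') :
    tripO E h (Im ι x) = Im ι (tripO E h x) :=
  tripO_Im ι h x

/-- The plane of `v` is a translate of the standard plane. -/
def PPI (P : Subgroup Lˣ) (ρ σ ι : E ≃ₐ[k] E) (α : E) (q : Lˣ) {a b c : kˣ}
    (v : OctL E a b c) : Prop :=
  ∃ y ∈ stabsPI P ρ σ ι α a b c q, ∃ t : E, t ≠ 0 ∧ y.1 (tri ρ v (Jm ρ σ α q v)) = t • ep α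

theorem PPI_trip {b' c' : kˣ} {j l : Oct a b c} (h : Trip a b' c' gi j l) {v : OctL E a b' c'}
    (hv : PPI P ρ σ ι α q v) : PPI P ρ σ ι α q (tripO E h v) := by
  obtain ⟨y, hy, t, ht, h1⟩ := hv
  refine ⟨cjAI ρ σ ι α q h y, cjAI_mem_stabsPI h hy, t, ht, ?_⟩
  rw [← tripO_Jm, ← tripO_tri]
  change cjE (tripO E h) y.1 _ = _
  rw [cj_apply, h1, map_smul, D4X.tripO_ep']

theorem PPI_of_ATI {y : ATI ρ σ ι α a b c q} (hy : y ∈ stabsPI P ρ σ ι α a b c q)
    {v : OctL E a b c} (hv : PPI P ρ σ ι α q (y.1 v)) : PPI P ρ σ ι α q v := by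
  obtain ⟨y2, hy2, t, ht, h1⟩ := hv
  refine ⟨y2 * y, Subgroup.mul_mem _ hy2 hy, ρ (algebraMap L E (kapI y : L)) * t,
    mul_ne_zero (kap_ne ρ _) ht, ?_⟩
  change y2.1 (y.1 _) = _
  rw [isKapI_kapI y, y.2.2.1, map_smul, h1, smul_smul]

theorem PPI_smul {s : E} (hs : s ≠ 0) {v : OctL E a b c} (hv : PPI P ρ σ ι α q v) :
    PPI P ρ σ ι α q (s • v) := by
  obtain ⟨y, hy, t, ht, h1⟩ := hv
  have hs1 : ρ s ≠ 0 := (map_ne_zero ρ).2 hs
  have hs2 : ρ (ρ (σ s)) ≠ 0 := (map_ne_zero ρ).2 ((map_ne_zero ρ).2 ((map_ne_zero σ).2 hs))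
  refine ⟨y, hy, ρ s * (ρ (ρ (σ s)) * t), mul_ne_zero hs1 (mul_ne_zero hs2 ht), ?_⟩
  rw [jmul, tri_smul_left, tri_smul_right, map_smul, map_smul, h1, smul_smul, smul_smul]
  congr 1
  ring

theorem PPI_of_smul {s : E} (hs : s ≠ 0) {v : OctL E a b c} (hv : PPI P ρ σ ι α q (s • v)) :
    PPI P ρ σ ι α q v := by
  have h := PPI_smul (inv_ne_zero hs) hv
  rwa [smul_smul, inv_mul_cancel₀ hs, one_smul] at h

/-- The multiplier of a similitude. -/
theorem norm_kapE (hρ : ∀ x, ρ (ρ (ρ x)) = x) {z : OctL E a b c ≃ₗ[E] OctL E a b c} {e : E}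
    (h : ∀ x y, z (tri ρ x y) = e • tri ρ (z x) (z y)) (x : OctL E a b c) :
    ρ e * ρ (ρ e) * Oct.norm (z x) = Oct.norm x := by
  have h1 := congrArg z (Orb.tri_tri hρ x (1 : OctL E a b c))
  rw [map_smul, h, h, tri_smul_left, Orb.tri_tri hρ, smul_smul, smul_smul] at h1
  have h2 : z (1 : OctL E a b c) ≠ 0 := by
    intro h0
    have h5 : (1 : OctL E a b c) = 0 := z.injective (h0.trans (map_zero z).symm)
    have h6 := congrArg (fun x : OctL E a b c => x.fst.re) h5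
    simp at h6
  have h3 := congrArg ρ (smul_left_injective E h2 h1)
  simp only [map_mul, hρ] at h3
  linear_combination h3

theorem hh_kapI (hρ : ∀ x, ρ (ρ (ρ x)) = x) (z : ATI ρ σ ι α a b c q) {κ : Lˣ}
    (h : IsKapI ρ z.1 κ) (v : OctL E a b c) :
    ρ (ρ (algebraMap L E (κ : L))) * ρ (ρ (ρ (algebraMap L E (κ : L)))) *
      hh ρ σ α q (z.1 v) = hh ρ σ α q v := by
  rw [hh, hh, ← z.2.2.1, Oct.bil, Oct.bil, ← map_add, mul_sub, mul_sub, norm_kapE hρ h,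
    norm_kapE hρ h, norm_kapE hρ h]

/-- The elements of the standard line. -/
theorem tri_line (hα' : α * α = algebraMap k E a) (hρα : ρ α = α) (s t s' t' : E) :
    tri ρ (⟨0, mk4 (up E a) (up E b) α s 0 t 0⟩ : OctL E a b c)
      ⟨0, mk4 (up E a) (up E b) α s' 0 t' 0⟩ = 0 := by
  have hα : α * α = ((up E a : Eˣ) : E) := hα'
  apply Oct.ext
  · simp only [tri, fst_mul, Nei.o1, Nei.o2, fst_star, snd_star, star_zero, qmap_zero, zero_mul,
      zero_add]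
    have h1 : ∀ y : Qt (up E a) (up E b), qmap ρ (-y) = -qmap ρ y := fun y => by
      ext
      · exact map_neg ρ y.re
      · exact map_neg ρ y.imI
      · exact map_neg ρ y.imJ
      · exact map_neg ρ y.imK
    rw [h1, h1, h1, star_neg, neg_mul_neg, qmap_mk4 hρα, qmap_mk4 hρα, qmap_mk4 hρα,
      star_mk4, mk4_mul hα]
    simp only [map_zero, mul_zero, zero_mul, add_zero, neg_zero, mk4_zero, smul_zero]
    rfl
  · simp only [tri, snd_mul, Nei.o1, Nei.o2, fst_star, snd_star, star_zero, qmap_zero,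
      mul_zero, add_zero]
    rfl

/-- The involution on the standard line. -/
theorem Im_line (hια : ι α = α) (s t : E) :
    Im ι (⟨0, mk4 (up E a) (up E b) α s 0 t 0⟩ : OctL E a b c) =
      ⟨0, -mk4 (up E a) (up E b) α (ι s) 0 (ι t) 0⟩ := by
  have h4 : qmap ι (mk4 (up E a) (up E b) α s 0 t 0) =
      mk4 (up E a) (up E b) α (ι s) 0 (ι t) 0 := by
    rw [qmap_mk4 hια, map_zero]
  apply Oct.ext
  · change qmap ι (star 0) = 0
    rw [star_zero, qmap_zero]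
  · change qmap ι (-mk4 (up E a) (up E b) α s 0 t 0) = -mk4 (up E a) (up E b) α (ι s) 0 (ι t) 0
    rw [qmap_neg, h4]

end alg

section fld

variable {k L E : Type} [Field k] [Field L] [Field E] [Algebra k L] [Algebra k E]
  [Algebra L E] [IsScalarTower k L E] {ρ σ ι : E ≃ₐ[k] E} {α : E}
  {a b c : kˣ} {q : Lˣ} (H : HyI ρ σ ι α a b c q)

include H

theorem ιρρ (x : E) : ι (ρ (ρ x)) = ρ (ι x) := by
  rw [H.ιρ, H.ιρ, H.ρ3]

/-- The fixed field of `σ` and `ι` is `ρ(L)`. -/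
theorem fix_rho {e : E} (h1 : σ e = e) (h2 : ι e = e) : ∃ t : L, ρ (algebraMap L E t) = e := by
  obtain ⟨t, ht⟩ := H.fixL (ρ (ρ e)) (by rw [H.comm, H.comm, h1]) (by
    rw [ιρρ H, h2, H.ρ3])
  exact ⟨t, by rw [ht, H.ρ3]⟩

theorem ne_of_posI {ν : L} (hν : ∀ w : L →+* ℝ, w (algebraMap k L a) < 0 → 0 < w ν) :
    ν ≠ 0 := by
  obtain ⟨w, hw, -⟩ := H.cpL
  rintro rfl
  have h1 := hν w hw
  rw [map_zero] at h1
  exact lt_irrefl _ h1

end fld

end H659

end Vale.Agent.P011.D4Y
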