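import Vale.Agent.P011.D4Y.H659.StepI
import Vale.Agent.P011.D4Y.H657.Line
import Vale.Agent.P011.D4X.H69.NearGen

/-!
Block D4Y (helper659): planes of neighbours, stable under the semilinear involution, with a
condition at the bad places only.
-/

open NumberField Topology

set_option linter.unusedSectionVars false

namespace Vale.Agent.P011.D4Y

open Vale.Agent.P011.MPQ Vale.Agent.P011.D4 Vale.Agent.P011.D4.Oct Vale.Agent.P011.E6
open Vale.Agent.P011.D4X Vale.Agent.P011.D4X.H691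

namespace H659

section anti

variable {k L E : Type} [Field k] [Field L] [Field E] [Algebra k L] [Algebra k E] [Algebra L E]
  [IsScalarTower k L E] [NeZero (2 : k)] [NeZero (2 : E)] {ρ σ ι : E ≃ₐ[k] E}
  {α : E} {a b c : kˣ} {q : Lˣ}

theorem pt_smul {s : E} (hs : s ≠ 0) {v : OctL E a b c} (hv : Pt ρ v) : Pt ρ (s • v) :=
  ⟨smul_ne_zero hs hv.1, by rw [tri_smul_left, tri_smul_right, hv.2, smul_zero, smul_zero]⟩

theorem nb_smul (s t : E) {v w : OctL E a b c} (h : Nb ρ v w) : Nb ρ (s • v) (t • w) := by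
  constructor
  · rw [tri_smul_left, tri_smul_right, h.1, smul_zero, smul_zero]
  · rw [tri_smul_left, tri_smul_right, h.2, smul_zero, smul_zero]

/-- A stable vector has a multiple which is anti-fixed. -/
theorem exists_anti (H : HyI ρ σ ι α a b c q) {v : OctL E a b c} (hv : v ≠ 0)
    (hI : ∃ μ : E, Im ι v = μ • v) : ∃ s : E, s ≠ 0 ∧ Im ι (s • v) = -(s • v) := by
  obtain ⟨μ, hμ⟩ := hI
  have h1 : ι μ * μ = 1 := by
    have h2 : Im ι (Im ι v) = v := invo_invo H.ι2 v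
    rw [hμ, imul, hμ, smul_smul] at h2
    have h3 : (ι μ * μ - 1) • v = 0 := by rw [sub_smul, h2, one_smul, sub_self]
    exact sub_eq_zero.1 ((smul_eq_zero.1 h3).resolve_right hv)
  by_cases h2 : 1 - μ = 0
  · obtain ⟨δ, d, hδ, -, -, d3⟩ := H.exists_delta
    have hδ0 : δ ≠ 0 := by
      rintro rfl
      rw [zero_mul] at hδ
      exact (map_ne_zero (algebraMap k E)).2 d.ne_zero hδ.symm
    refine ⟨δ, hδ0, ?_⟩
    rw [imul, hμ, d3, smul_smul, ← neg_smul]
    congr 1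
    linear_combination δ * h2
  · refine ⟨1 - μ, h2, ?_⟩
    rw [imul, hμ, smul_smul, ← neg_smul, map_sub, map_one]
    congr 1
    linear_combination -h1

end anti

section step

variable {k L E : Type} [Field k] [NumberField k] [Field L] [Field E] [Algebra k L] [Algebra k E]
  [Algebra L E] [IsScalarTower k L E] [NeZero (2 : E)] {ρ σ ι : E ≃ₐ[k] E} {α : E}
  {a b c : kˣ} {q : Lˣ} (H : HyI ρ σ ι α a b c q) {P : Subgroup Lˣ}
  (hP : ∀ κ : Lˣ, (∀ w : L →+* ℝ, w (algebraMap k L a) < 0 → 0 < w (κ : L)) → κ ∈ P)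

include H hP

/-- **Planes of neighbours**, stable under the semilinear involution, with a condition at the bad
places only. -/
theorem stepBI {v v' : OctL E a b c} (hv : Pt ρ v) (hI : ∃ μ : E, Im ι v = μ • v)
    (hv' : Pt ρ v') (hI' : ∃ μ : E, Im ι v' = μ • v') (hn : Nb ρ v v')
    (hs : ∀ W : E →+* ℂ, BadW ρ σ (algebraMap L E (q : L)) W →
      0 < (W (hh ρ σ α q v' / hh ρ σ α q v)).re) (hp : PPI P ρ σ ι α q v) :
    PPI P ρ σ ι α q v' := by
  obtain ⟨s, hs0, hsI⟩ := exists_anti H hv.1 hI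
  obtain ⟨t, ht0, htI⟩ := exists_anti H hv'.1 hI'
  refine PPI_of_smul ht0 (stepPI H hP (fun b' c' H' s t h g1 g2 ν g3 g4 =>
    exists_line_fix H' s t h g1 g2 g3 g4) (pt_smul hs0 hv) hsI (pt_smul ht0 hv') htI
    (nb_smul s t hn) (fun W hW => ?_) (PPI_smul hs0 hp))
  have h1 : hh ρ σ α q (t • v') / hh ρ σ α q (s • v) =
      t * σ t * (s⁻¹ * σ s⁻¹) * (hh ρ σ α q v' / hh ρ σ α q v) := by
    have hσs : σ s ≠ 0 := (map_ne_zero σ).2 hs0
    rw [hh_smul, hh_smul, map_inv₀, div_eq_mul_inv, div_eq_mul_inv, mul_inv, mul_inv]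
    ring
  have h2 : ∀ x : E, x ≠ 0 → 0 < Complex.normSq (W x) := fun x hx =>
    Complex.normSq_pos.2 ((map_ne_zero W).2 hx)
  rw [h1, map_mul, map_mul, map_mul, map_mul, hW.1, hW.1, Complex.mul_conj, Complex.mul_conj,
    ← Complex.ofReal_mul, Complex.re_ofReal_mul]
  exact mul_pos (mul_pos (h2 t ht0) (h2 _ (inv_ne_zero hs0))) (hs W hW)

/-- The step lemma in the form of the chain lemma. -/
theorem step_near (v v' : OctL E a b c) (hv : Pt ρ v) (hI : ∃ μ : E, invo ι v = μ • v)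
    (hv' : Pt ρ v') (hI' : ∃ μ : E, invo ι v' = μ • v') (hn : Nb ρ v v')
    (hs : ∀ W ∈ Bd ρ σ q, 0 < (W (bil v' (Jm ρ σ α q v') / bil v (Jm ρ σ α q v))).re)
    (hp : PPI P ρ σ ι α q v) : PPI P ρ σ ι α q v' :=
  stepBI H hP hv hI hv' hI' hn (fun W hW => hs W hW) hp

end step

section act

variable {k L E : Type} [Field k] [Field L] [Field E] [Algebra k L] [Algebra k E] [Algebra L E]
  [IsScalarTower k L E] [NeZero (2 : k)] [NeZero (2 : E)] {ρ σ ι : E ≃ₐ[k] E}
  {α : E} {a b c : kˣ} {q : Lˣ} {P : Subgroup Lˣ}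

theorem PPI_ATI {y : ATI ρ σ ι α a b c q} (hy : y ∈ stabsPI P ρ σ ι α a b c q)
    {v : OctL E a b c} (hv : PPI P ρ σ ι α q v) : PPI P ρ σ ι α q (y.1 v) := by
  apply PPI_of_ATI (Subgroup.inv_mem _ hy)
  change PPI P ρ σ ι α q ((y⁻¹ * y : ATI ρ σ ι α a b c q).1 v)
  rw [inv_mul_cancel]
  exact hv

/-- The action of the elements of the centralisers with multiplier one. -/
theorem act_near (z : ATI ρ σ ι α a b c q) (b' c' : kˣ) (j l : Oct a b c)
    (h : Trip a b' c' gi j l) (hz : z ∈ stabI ρ σ ι α q h) (hκ : IsKapI ρ z.1 (1 : Lˣ))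
    (v : OctL E a b c) (hv : PPI P ρ σ ι α q v) : PPI P ρ σ ι α q (z.1 v) :=
  PPI_ATI (mem_stabsPI (by rw [kapI_eq hκ]; exact one_mem P) h hz) hv

end act

end H659

end Vale.Agent.P011.D4Y
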