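import Vale.Agent.P011.D4Y.H659.HhI
import Vale.Agent.P011.D4Y.H657.Conj
import Vale.Agent.P011.D4X.H659.StepB

/-!
Block D4Y (helper659): the planes of neighbours.
-/

open NumberField Topology

set_option linter.unusedSectionVars false

namespace Vale.Agent.P011.D4Y

open Vale.Agent.P011.MPQ Vale.Agent.P011.D4 Vale.Agent.P011.D4.Oct Vale.Agent.P011.E6
open Vale.Agent.P011.D4X Vale.Agent.P011.D4X.H691

namespace H659

section step

variable {k L E : Type} [Field k] [NumberField k] [Field L] [Field E] [Algebra k L] [Algebra k E]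
  [Algebra L E] [IsScalarTower k L E] [NeZero (2 : E)] {ρ σ ι : E ≃ₐ[k] E} {α : E}
  {a b c : kˣ} {q : Lˣ} (H : HyI ρ σ ι α a b c q)

include H

omit [NumberField k] [NeZero (2 : E)] in
theorem mix_q {w : L →+* ℝ} {W : E →+* ℂ}
    (hW : ∀ t : L, W (algebraMap L E t) = ((w t : ℝ) : ℂ))
    (hc : ∀ y, W (σ (ρ (ι y))) = (starRingEnd ℂ) (W y)) : 0 < w (q : L) := by
  have e1 : W (ρ (algebraMap L E (q : L))) =
      (starRingEnd ℂ) (W (ρ (ρ (algebraMap L E (q : L))))) := by
    rw [← hc, ιρρ H, H.ιL, H.ρ3, H.comm, H.σL]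
  have e2 := congrArg W H.hq
  rw [map_mul, map_mul, map_one, hW, e1, mul_assoc, mul_comm ((starRingEnd ℂ) _),
    Complex.mul_conj, ← Complex.ofReal_mul] at e2
  have e3 : w (q : L) * Complex.normSq (W (ρ (ρ (algebraMap L E (q : L))))) = 1 := by
    exact_mod_cast e2
  by_contra hcon
  have e4 : w (q : L) * Complex.normSq (W (ρ (ρ (algebraMap L E (q : L))))) ≤ 0 :=
    mul_nonpos_of_nonpos_of_nonneg (not_lt.1 hcon) (Complex.normSq_nonneg _)
  rw [e3] at e4
  exact absurd e4 (not_le.2 one_pos)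

theorem mix_all {w : L →+* ℝ} (hw : w (algebraMap k L a) < 0) {W : E →+* ℂ}
    (hW : ∀ t : L, W (algebraMap L E t) = ((w t : ℝ) : ℂ))
    (hc : ∀ y, W (σ (ρ (ι y))) = (starRingEnd ℂ) (W y)) {w' : L →+* ℝ}
    (hw' : w'.comp (algebraMap k L) = w.comp (algebraMap k L)) : 0 < w' (q : L) := by
  have := H.finiteL
  obtain ⟨δ, d, hδ, hρ, hσ, hι⟩ := H.exists_delta
  have hδ0 : δ ≠ 0 := by
    rintro rfl
    rw [zero_mul] at hδ
    exact (map_ne_zero (algebraMap k E)).2 d.ne_zero hδ.symm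
  have e0 : ∀ t : k, w' (algebraMap k L t) = w (algebraMap k L t) := fun t =>
    congrArg (fun f : k →+* ℝ => f t) hw'
  have e1 : (starRingEnd ℂ) (W δ) = -W δ := by
    rw [← hc, hι, map_neg, map_neg, map_neg, hρ, hσ]
  have e2 : W δ * W δ = ((w (algebraMap k L d) : ℝ) : ℂ) := by
    rw [← map_mul, hδ, IsScalarTower.algebraMap_apply k L E, hW]
  have e3 : w (algebraMap k L d) = -Complex.normSq (W δ) := by
    have h1 := Complex.mul_conj (W δ)
    rw [e1, mul_neg, e2] at h1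
    have h2 : -(w (algebraMap k L d)) = Complex.normSq (W δ) := by exact_mod_cast h1
    rw [← h2, neg_neg]
  have e4 : w (algebraMap k L d) < 0 := by
    rw [e3]
    exact neg_lt_zero.2 (Complex.normSq_pos.2 ((map_ne_zero W).2 hδ0))
  obtain ⟨W', hW'⟩ := H68.exists_lift (E := E) w'
  rcases H.conj_or (by rw [e0]; exact hw) hW' with h | h
  · exfalso
    have e5 : (starRingEnd ℂ) (W' δ) = W' δ := by rw [← h, hσ]
    have e6 : W' δ * W' δ = ((w (algebraMap k L d) : ℝ) : ℂ) := by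
      rw [← map_mul, hδ, IsScalarTower.algebraMap_apply k L E, hW', e0]
    have h1 := Complex.mul_conj (W' δ)
    rw [e5, e6] at h1
    have h2 : w (algebraMap k L d) = Complex.normSq (W' δ) := by exact_mod_cast h1
    rw [h2] at e4
    exact absurd e4 (not_lt.2 (Complex.normSq_nonneg _))
  · exact mix_q H hW' h

theorem split_all {w : L →+* ℝ} {W : E →+* ℂ}
    (hW : ∀ t : L, W (algebraMap L E t) = ((w t : ℝ) : ℂ))
    (hc : ∀ y, W (σ y) = (starRingEnd ℂ) (W y))
    (h0 : 0 < (W (algebraMap L E (q : L))).re) (h1 : 0 < (W (ρ (algebraMap L E (q : L)))).re)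
    (h2 : 0 < (W (ρ (ρ (algebraMap L E (q : L))))).re) {w' : L →+* ℝ}
    (hw' : w'.comp (algebraMap k L) = w.comp (algebraMap k L)) : 0 < w' (q : L) := by
  have e0 : ∀ t : k, w' (algebraMap k L t) = w (algebraMap k L t) := fun t =>
    congrArg (fun f : k →+* ℝ => f t) hw'
  have hre : ∀ x, σ x = x → W x = (((W x).re : ℝ) : ℂ) := by
    intro x hx
    have h3 := hc x
    rw [hx] at h3
    exact (Complex.conj_eq_iff_re.1 h3.symm).symm
  obtain ⟨y, hy⟩ : ∃ y, y = algebraMap L E (q : L) := ⟨_, rfl⟩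
  have hq := H.hq
  have s0 : σ y = y := by rw [hy, H.σL]
  have s1 : σ (ρ y) = ρ y := by rw [H.comm, s0]
  have s2 : σ (ρ (ρ y)) = ρ (ρ y) := by rw [H.comm, s1]
  have i0 : ι y = ρ (ρ y) := by rw [hy, H.ιL]
  have i1 : ι (ρ y) = ρ y := by rw [H.ιρ, i0, H.ρ3]
  have i2 : ι (ρ (ρ y)) = y := by rw [H.ιρ, i1, H.ρ3]
  rw [← hy] at h0 h1 h2 hq
  obtain ⟨u1, hu1⟩ := H.fixk (y + ρ y + ρ (ρ y)) (by
    rw [map_add, map_add, H.ρ3]; ring) (by rw [map_add, map_add, s0, s1, s2]) (by
    rw [map_add, map_add, i0, i1, i2]; ring)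
  obtain ⟨u2, hu2⟩ := H.fixk (y * ρ y + ρ y * ρ (ρ y) + ρ (ρ y) * y) (by
    rw [map_add, map_add, map_mul, map_mul, map_mul, H.ρ3]; ring) (by
    rw [map_add, map_add, map_mul, map_mul, map_mul, s0, s1, s2]) (by
    rw [map_add, map_add, map_mul, map_mul, map_mul, i0, i1, i2]; ring)
  have e1 : (q : L) ^ 3 - algebraMap k L u1 * (q : L) ^ 2 + algebraMap k L u2 * (q : L) - 1 = 0 := by
    apply (algebraMap L E).injective
    rw [map_sub, map_add, map_sub, map_mul, map_mul, map_pow, map_pow, map_one, map_zero,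
      ← IsScalarTower.algebraMap_apply, ← IsScalarTower.algebraMap_apply, hu1, hu2, ← hy]
    linear_combination hq
  have e2 := congrArg w' e1
  rw [map_sub, map_add, map_sub, map_mul, map_mul, map_pow, map_pow, map_one, map_zero, e0,
    e0] at e2
  have f1 : w (algebraMap k L u1) = (W y).re + (W (ρ y)).re + (W (ρ (ρ y))).re := by
    have h3 := congrArg W hu1
    rw [IsScalarTower.algebraMap_apply k L E, hW, map_add, map_add, hre y s0, hre _ s1,
      hre _ s2] at h3
    exact_mod_cast h3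
  have f2 : w (algebraMap k L u2) = (W y).re * (W (ρ y)).re + (W (ρ y)).re * (W (ρ (ρ y))).re +
      (W (ρ (ρ y))).re * (W y).re := by
    have h3 := congrArg W hu2
    rw [IsScalarTower.algebraMap_apply k L E, hW, map_add, map_add, map_mul, map_mul, map_mul,
      hre y s0, hre _ s1, hre _ s2] at h3
    exact_mod_cast h3
  have f3 : (W y).re * (W (ρ y)).re * (W (ρ (ρ y))).re = 1 := by
    have h3 := congrArg W hq
    rw [map_mul, map_mul, map_one, hre y s0, hre _ s1, hre _ s2] at h3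
    exact_mod_cast h3
  rw [f1, f2] at e2
  have e3 : (w' (q : L) - (W y).re) * ((w' (q : L) - (W (ρ y)).re) *
      (w' (q : L) - (W (ρ (ρ y))).re)) = 0 := by
    linear_combination e2 - f3
  rcases mul_eq_zero.1 e3 with h | h
  · rw [sub_eq_zero.1 h]
    exact h0
  · rcases mul_eq_zero.1 h with h | h
    · rw [sub_eq_zero.1 h]
      exact h1
    · rw [sub_eq_zero.1 h]
      exact h2

/-- The types on the standard line are positive at the places with `a < 0` if they are positive at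
the bad places. -/
theorem posI_line {s t : E} (h : s ≠ 0 ∨ t ≠ 0) (hsι : ι s = s) (htι : ι t = t)
    (hs : ∀ W : E →+* ℂ, BadW ρ σ (algebraMap L E (q : L)) W →
      0 < (W (s * σ s - algebraMap k E (b : k) * (t * σ t) / ρ (algebraMap L E (q : L)))).re) :
    PosI L ρ a (s * σ s - algebraMap k E (b : k) * (t * σ t) /
      ρ (algebraMap L E (q : L))) := by
  have := H.finiteL
  have q1 : σ (ρ (algebraMap L E (q : L))) = ρ (algebraMap L E (q : L)) := by rw [H.comm, H.σL]
  have q2 : ι (ρ (algebraMap L E (q : L))) = ρ (algebraMap L E (q : L)) := by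
    rw [H.ιρ, H.ιL, H.ρ3]
  obtain ⟨r, hr⟩ : ∃ r, r = s * σ s - algebraMap k E (b : k) * (t * σ t) /
      ρ (algebraMap L E (q : L)) := ⟨_, rfl⟩
  obtain ⟨t0, ht0⟩ := fix_rho H (e := r)
    (by rw [hr, map_sub, map_div₀, map_mul, map_mul, map_mul, H.σ2, H.σ2, AlgEquiv.commutes, q1]
        ring)
    (by rw [hr, map_sub, map_div₀, map_mul, map_mul, map_mul, ← H.σι, ← H.σι, AlgEquiv.commutes,
          q2, hsι, htι])
  rw [← hr] at hs ⊢
  refine ⟨t0, ht0, fun w hw => ?_⟩
  obtain ⟨W, hW⟩ := H68.exists_lift (E := E) w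
  by_cases hall : ∀ w' : L →+* ℝ, w'.comp (algebraMap k L) = w.comp (algebraMap k L) →
      0 < w' (q : L)
  · have hb : w (algebraMap k L b) < 0 := (H.hre (w.comp (algebraMap k L)) hw hall).1
    have hq : 0 < w (q : L) := hall w rfl
    have h2 : ∀ y, ι y = y → W (σ (ρ (ρ y))) = (starRingEnd ℂ) (W (ρ (ρ y))) := by
      intro y hy
      rcases H.conj_or hw hW with h | h
      · exact h _
      · rw [← h, ιρρ H, hy]
    have h1 : algebraMap L E t0 = ρ (ρ s) * σ (ρ (ρ s)) - algebraMap k E (b : k) *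
        (ρ (ρ t) * σ (ρ (ρ t))) / algebraMap L E (q : L) := by
      rw [← H.ρ3 (algebraMap L E t0), ht0, hr, map_sub, map_sub, map_div₀, map_div₀]
      simp only [map_mul, AlgEquiv.commutes, H.comm, H.ρ3]
    have h3 : w t0 = Complex.normSq (W (ρ (ρ s))) - w (algebraMap k L b) *
        Complex.normSq (W (ρ (ρ t))) / w (q : L) := by
      have h4 := congrArg W h1
      rw [hW, map_sub, map_div₀, map_mul, map_mul, map_mul, h2 s hsι, h2 t htι, Complex.mul_conj,
        Complex.mul_conj, IsScalarTower.algebraMap_apply k L E, hW, hW] at h4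
      exact_mod_cast h4
    have h5 := Complex.normSq_nonneg (W (ρ (ρ s)))
    have h6 : 0 ≤ -w (algebraMap k L b) * Complex.normSq (W (ρ (ρ t))) / w (q : L) :=
      div_nonneg (mul_nonneg (neg_nonneg.2 hb.le) (Complex.normSq_nonneg _)) hq.le
    have h7 : w t0 = Complex.normSq (W (ρ (ρ s))) + -w (algebraMap k L b) *
        Complex.normSq (W (ρ (ρ t))) / w (q : L) := by
      rw [h3]
      ring
    have hne : ∀ x : E, x ≠ 0 → 0 < Complex.normSq (W (ρ (ρ x))) := fun x hx =>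
      Complex.normSq_pos.2 ((map_ne_zero W).2 ((map_ne_zero ρ).2 ((map_ne_zero ρ).2 hx)))
    rw [h7]
    rcases h with h | h
    · exact add_pos_of_pos_of_nonneg (hne s h) h6
    · exact add_pos_of_nonneg_of_pos h5 (div_pos (mul_pos (neg_pos.2 hb) (hne t h)) hq)
  · rcases H.conj_or hw hW with h8 | h8
    · have h9 := hs ((W.comp (ρ : E →+* E)).comp (ρ : E →+* E)) ⟨fun x => by
        change W (ρ (ρ (σ x))) = (starRingEnd ℂ) (W (ρ (ρ x)))
        rw [← h8, H.comm, H.comm], ?_⟩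
      · change 0 < (W (ρ (ρ r))).re at h9
        rw [← ht0, H.ρ3, hW, Complex.ofReal_re] at h9
        exact h9
      · rintro ⟨g0, g1, g2⟩
        change 0 < (W (ρ (ρ (algebraMap L E (q : L))))).re at g0
        change 0 < (W (ρ (ρ (ρ (algebraMap L E (q : L)))))).re at g1
        change 0 < (W (ρ (ρ (ρ (ρ (algebraMap L E (q : L))))))).re at g2
        rw [H.ρ3] at g1 g2
        exact hall fun w' hw' => split_all H hW h8 g1 g2 g0 hw'
    · exact absurd (fun w' hw' => mix_all H hw hW h8 hw') hall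

variable {P : Subgroup Lˣ}
  (hP : ∀ κ : Lˣ, (∀ w : L →+* ℝ, w (algebraMap k L a) < 0 → 0 < w (κ : L)) → κ ∈ P)
  (line : ∀ b' c' : kˣ, HyI ρ σ ι α a b' c' q → ∀ s t : E, s ≠ 0 ∨ t ≠ 0 → ι s = s → ι t = t →
    ∀ ν : L, ρ (algebraMap L E ν) = s * σ s - algebraMap k E b' *
      (ρ (algebraMap L E (q : L)))⁻¹ * (t * σ t) →
    (∀ w : L →+* ℝ, w (algebraMap k L a) < 0 → 0 < w ν) →
    ∃ z ∈ stab0I ρ σ ι α a b' c' q, (∀ κ : Lˣ, ν * κ = 1 → IsKapI ρ z.1 κ) ∧ ∃ r : E, r ≠ 0 ∧
      z.1 (ep α) = r • tri ρ (s • (ep α * gl) + t • ((1 - ep α) * (gj * gl)) : OctL E a b' c')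
        (Jm ρ σ α q (s • (ep α * gl) + t • ((1 - ep α) * (gj * gl)))))

include hP line

/-- The vectors of the standard line. -/
theorem line1PI (s t : E) (h : s ≠ 0 ∨ t ≠ 0) (hsι : ι s = s) (htι : ι t = t)
    (hs : ∀ W : E →+* ℂ, BadW ρ σ (algebraMap L E (q : L)) W →
      0 < (W (s * σ s - algebraMap k E (b : k) * (t * σ t) / ρ (algebraMap L E (q : L)))).re) :
    PPI P ρ σ ι α q (s • (ep α * gl) + t • ((1 - ep α) * (gj * gl)) : OctL E a b c) := by
  obtain ⟨t0, ht0, hpos⟩ := posI_line H h hsι htι hs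
  have ht00 : t0 ≠ 0 := ne_of_posI H hpos
  obtain ⟨z, hz1, hz2, r, hr, h1⟩ := line b c H s t h hsι htι t0
    (by rw [ht0]; ring) hpos
  have hκ : kapI z ∈ P := by
    have h1 : IsKapI ρ z.1 (Units.mk0 t0 ht00)⁻¹ := hz2 _ (by
      rw [Units.val_inv_eq_inv_val, Units.val_mk0, mul_inv_cancel₀ ht00])
    rw [kapI_eq h1]
    apply hP
    intro w hw
    rw [Units.val_inv_eq_inv_val, Units.val_mk0, map_inv₀]
    exact inv_pos.2 (hpos w hw)
  refine ⟨z⁻¹, Subgroup.inv_mem _ (mem_stabsPI0 hκ hz1), r⁻¹, inv_ne_zero hr, ?_⟩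
  apply z.1.injective
  rw [map_smul, h1, smul_smul, inv_mul_cancel₀ hr, one_smul]
  change (z * z⁻¹ : ATI ρ σ ι α a b c q).1 _ = _
  rw [mul_inv_cancel]
  rfl

/-- The neighbours of the standard vector. -/
theorem step0PI {v : OctL E a b c} (hv : Pt ρ v) (hI : Im ι v = -v)
    (h : Nb ρ (ep α * oup E (gl : Oct a b c)) v)
    (hs : ∀ W : E →+* ℂ, BadW ρ σ (algebraMap L E (q : L)) W →
      0 < (W (hh ρ σ α q v / hh ρ σ α q (ep α * oup E (gl : Oct a b c)))).re) :
    PPI P ρ σ ι α q v := by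
  have hα : α * α = ((up E a : Eˣ) : E) := H.α2
  have hq0 : algebraMap L E (q : L) ≠ 0 := (map_ne_zero _).2 q.ne_zero
  have hq1 : ρ (algebraMap L E (q : L)) ≠ 0 := (map_ne_zero ρ).2 hq0
  have hcE : algebraMap k E (c : k) ≠ 0 := (map_ne_zero _).2 c.ne_zero
  -- the type of the vectors of the standard line
  have hline : ∀ (b' : kˣ) (s t : E), hh ρ σ α q
      (s • (ep α * gl) + t • ((1 - ep α) * (gj * gl)) : OctL E a b' c) /
        hh ρ σ α q (ep α * oup E (gl : Oct a b c)) =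
      s * σ s - algebraMap k E (b' : k) * (t * σ t) / ρ (algebraMap L E (q : L)) := by
    intro b' s t
    have e0 : (ep α * oup E (gl : Oct a b c) : OctL E a b c) =
        ⟨0, mk4 (up E a) (up E b) α 1 0 0 0⟩ := by
      have h1 := line_vec (b := b) (c := c) H.α2 1 0
      rw [one_smul, zero_smul, add_zero] at h1
      rw [oup_gl, h1]
    rw [line_vec H.α2, e0, hh_line H.α2 H.σα, hh_line H.α2 H.σα, map_one, map_zero]
    field_simp
    ring
  -- the coordinates of an anti-fixed vector of the standard line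
  have hfix : ∀ (b' : kˣ) (s t : E),
      Im ι (s • (ep α * gl) + t • ((1 - ep α) * (gj * gl)) : OctL E a b' c) =
        -(s • (ep α * gl) + t • ((1 - ep α) * (gj * gl)) : OctL E a b' c) →
      ι s = s ∧ ι t = t := by
    intro b' s t h0
    rw [line_vec H.α2, Im_line H.ια] at h0
    have h1 : -mk4 (up E a) (up E b') α (ι s) 0 (ι t) 0 = -mk4 (up E a) (up E b') α s 0 t 0 :=
      congrArg (fun x : OctL E a b' c => x.snd) h0
    obtain ⟨e1, -, e2, -⟩ := mk4_inj hα (neg_injective h1)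
    exact ⟨e1, e2⟩
  obtain ⟨s, t, f, f1, f2, f3, f4, hf⟩ := nb_ep H hv ⟨-1, by rw [hI, neg_one_smul]⟩ h
  by_cases hf0 : f = 0
  · rw [hf0, oup_zero, mul_zero, smul_zero, add_zero, oup_gl] at hf
    have e0 : (s • (ep α * gl) + (0 : E) • ((1 - ep α) * (gj * gl)) : OctL E a b c) = v := by
      rw [zero_smul, add_zero, hf]
    obtain ⟨g1, g2⟩ := hfix b s 0 (by rw [e0, hI])
    have hs0 : s ≠ 0 := by
      rintro rfl
      rw [zero_smul] at hf
      exact hv.1 hf
    have h1 := line1PI H hP line (c := c) s 0 (Or.inl hs0) g1 g2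
      (by rw [← hline b s 0, e0]; exact hs)
    rwa [e0] at h1
  · -- the element `j'` with `f = j' l`
    have ha0 : (a : k) ≠ 0 := a.ne_zero
    have hb0 : (b : k) ≠ 0 := b.ne_zero
    have hc0 : (c : k) ≠ 0 := c.ne_zero
    have g0 : f.fst.re = 0 := by
      simp [dot] at f1
      exact f1
    have g1 : f.fst.imI = 0 := by
      simp [dot, gi] at f2
      exact f2
    have g2 : f.snd.re = 0 := by
      simp [dot, gl] at f3
      exact f3
    have g3 : f.snd.imI = 0 := by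
      simp [dot, gi, gl] at f4
      exact f4
    obtain ⟨j', hj'⟩ : ∃ j' : Oct a b c, j' =
      ⟨⟨0, 0, f.snd.imJ, f.snd.imK⟩, ⟨0, 0, f.fst.imJ / c, f.fst.imK / c⟩⟩ := ⟨_, rfl⟩
    have hjl : j' * gl = f := by
      rw [hj']
      apply ext8 <;> simp [gl, g0, g1, g2, g3] <;> field_simp
    have hj0 : j' ≠ 0 := by
      intro h0
      apply hf0
      rw [← hjl, h0, zero_mul]
    have hn : -norm j' ≠ 0 := neg_ne_zero.2 fun h0 => hj0 (H.hdiv _ h0)
    have hsj : star j' = -j' := by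
      rw [hj']
      apply ext8 <;> simp
    have ht : Trip a (Units.mk0 _ hn) c gi j' gl := by
      have hs : Trip a b c (gi : Oct a b c) gj gl := trip_std
      refine ⟨hs.si, hsj, hs.sl, hs.ii, norm_eq_of_sq hsj, hs.ll, ?_, hs.il, ?_, ?_⟩
      · rw [hj']; simp [dot, gi]
      · rw [hj']; simp [dot, gl]
      · rw [hj']; simp [dot, gi, gl]
    have e1 : tripO E ht (s • (ep α * gl) + t • ((1 - ep α) * (gj * gl))) = v := by
      have e2 : tripO E ht gl = oup E gl := by
        rw [← oup_gl, tripO_oup, B.emb_gl]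
      have e3 : tripO E ht gj = oup E j' := by
        rw [← oup_gj, tripO_oup, B.emb_gj]
      have e4 : tripO E ht 1 = 1 := hom_one (tripO_mul ht)
      rw [map_add, map_smul, map_smul, tripO_mul, tripO_mul, tripO_mul, map_sub, e4, e2, e3,
        D4X.tripO_ep', ← oup_mul, hjl, hf]
    obtain ⟨k1, k2⟩ := hfix (Units.mk0 _ hn) s t (by
      apply (tripO E ht).injective
      rw [trip_Im, map_neg, e1, hI])
    have hst : s ≠ 0 ∨ t ≠ 0 := by
      by_contra hcon
      push Not at hcon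
      rw [hcon.1, hcon.2, zero_smul, zero_smul, add_zero] at hf
      exact hv.1 hf
    have h1 := PPI_trip ht (line1PI (hyTripI H ht) hP line s t hst k1 k2 (by
      rw [← hline (Units.mk0 _ hn) s t, ← hh_trip ht, e1]
      exact hs))
    rwa [e1] at h1

/-- **Planes of neighbours.** -/
theorem stepPI {v v' : OctL E a b c} (hv : Pt ρ v) (hvI : Im ι v = -v) (hv' : Pt ρ v')
    (hvI' : Im ι v' = -v') (hn : Nb ρ v v')
    (hs : ∀ W : E →+* ℂ, BadW ρ σ (algebraMap L E (q : L)) W →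
      0 < (W (hh ρ σ α q v' / hh ρ σ α q v)).re) (hp : PPI P ρ σ ι α q v) :
    PPI P ρ σ ι α q v' := by
  have hα : α * α = ((up E a : Eˣ) : E) := H.α2
  obtain ⟨y, hy, t, ht, h1⟩ := hp
  have hκ := kap_ne (L := L) ρ (kapI y)
  have h2 : tri ρ (y.1 v) (Jm ρ σ α q (y.1 v)) =
      ((ρ (algebraMap L E (kapI y : L)))⁻¹ * t) • ep α := by
    rw [← y.2.2.1, tri_kap (isKapI_kapI y), h1, smul_smul]
  have hyI : Im ι (y.1 v) = -y.1 v := by rw [← y.2.2.2, hvI, map_neg]
  have hyI' : Im ι (y.1 v') = -y.1 v' := by rw [← y.2.2.2, hvI', map_neg]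
  obtain ⟨s, w, hs0, hw, w1, w2, h3⟩ := sing_ep H (pt_ATI y hv)
    ⟨-1, by rw [hyI, neg_one_smul]⟩ (mul_ne_zero (inv_ne_zero hκ) ht) h2
  have hstd : Trip a b c (gi : Oct a b c) gj gl := trip_std
  have hi1 : dot (gi : Oct a b c) 1 = 0 := by simp [dot, gi]
  have hi0 : (gi : Oct a b c) ≠ 0 := by
    intro h0
    have h5 := congrArg (fun x : Oct a b c => x.fst.imI) h0
    simp [gi] at h5
  obtain ⟨a', b', c', m, hm⟩ := D4.H369.trip_of_ij H.hdiv hi1 hi0 w1 hw w2
  have ht1 : Trip a c' b' gi m w := by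
    refine ⟨hm.si, hm.sl, hm.sj, hstd.ii, hm.ll, hm.jj, hm.il, hm.ij, ?_, ?_⟩
    · rw [dot_comm]; exact hm.jl
    · rw [dot_mul_left, hm.si, neg_mul, dot_neg_right, dot_comm, hm.ijl, neg_zero]
  have e1 : y.1 v = s • tripO E ht1 (ep α * oup E gl) := by
    rw [h3, tripO_mul, D4X.tripO_ep', tripO_oup, B.emb_gl]
  -- `s` is fixed by `ι`
  have e2 : (ep α * oup E (gl : Oct a c' b') : OctL E a c' b') =
      ⟨0, mk4 (up E a) (up E c') α 1 0 0 0⟩ := by
    have h1 := line_vec (b := c') (c := b') H.α2 1 0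
    rw [one_smul, zero_smul, add_zero] at h1
    rw [oup_gl, h1]
  have e3 : Im ι (ep α * oup E (gl : Oct a c' b') : OctL E a c' b') =
      -(ep α * oup E (gl : Oct a c' b') : OctL E a c' b') := by
    rw [e2, Im_line H.ια, map_one, map_zero]
    apply Oct.ext
    · exact neg_zero.symm
    · rfl
  have e4 : tripO E ht1 (ep α * oup E gl) ≠ 0 := by
    intro h0
    rw [e1, h0, smul_zero] at hyI
    have h5 : y.1 v = 0 := by rw [e1, h0, smul_zero]
    exact (pt_ATI y hv).1 h5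
  have hsι : ι s = s := by
    rw [e1, imul, ← trip_Im, e3, map_neg, smul_neg] at hyI
    have h5 := neg_injective hyI
    exact smul_left_injective E e4 h5
  obtain ⟨x', hx'⟩ := (tripO E ht1).surjective (y.1 v')
  have h4 : Pt ρ x' := D4X.pt_trip ht1 (by rw [hx']; exact pt_ATI y hv')
  have h4' : Im ι x' = -x' := by
    apply (tripO E ht1).injective
    rw [trip_Im, map_neg, hx', hyI']
  have h5 : Nb ρ (ep α * oup E gl) x' := by
    apply D4X.nb_trip ht1
    have h6 := nb_ATI y hn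
    rw [e1, ← hx'] at h6
    have hs1 : ρ s ≠ 0 := (map_ne_zero_iff ρ ρ.injective).2 hs0
    have hs2 : ρ (ρ s) ≠ 0 := (map_ne_zero_iff ρ ρ.injective).2 hs1
    refine ⟨?_, ?_⟩
    · have h7 := h6.1
      rw [tri_smul_left] at h7
      exact (smul_eq_zero.1 h7).resolve_left hs1
    · have h7 := h6.2
      rw [tri_smul_right] at h7
      exact (smul_eq_zero.1 h7).resolve_left hs2
  -- the types
  have k1 := hh_kapI (q := q) H.ρ3 y (isKapI_kapI y) v
  have k2 := hh_kapI (q := q) H.ρ3 y (isKapI_kapI y) v'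
  rw [e1, hh_smul, hh_trip] at k1
  rw [← hx', hh_trip] at k2
  have hκ1 : ρ (ρ (algebraMap L E (kapI y : L))) ≠ 0 := (map_ne_zero ρ).2 hκ
  have hκ2 : ρ (ρ (ρ (algebraMap L E (kapI y : L)))) ≠ 0 := (map_ne_zero ρ).2 hκ1
  have hσs : σ s ≠ 0 := (map_ne_zero σ).2 hs0
  have hpos : ∀ W : E →+* ℂ, BadW ρ σ (algebraMap L E (q : L)) W →
      0 < (W (hh ρ σ α q x' / hh ρ σ α q (ep α * oup E (gl : Oct a c' b')))).re := by
    intro W hW
    have h8 : hh ρ σ α q x' / hh ρ σ α q (ep α * oup E (gl : Oct a c' b')) =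
        s * σ s * (hh ρ σ α q v' / hh ρ σ α q v) := by
      rw [← k1, ← k2]
      by_cases h0 : hh ρ σ α q (ep α * oup E (gl : Oct a c' b')) = 0
      · rw [h0]
        simp
      · field_simp
    rw [h8, map_mul, map_mul, hW.1, Complex.mul_conj, Complex.re_ofReal_mul]
    exact mul_pos (Complex.normSq_pos.2 ((map_ne_zero W).2 hs0)) (hs W hW)
  have h7 := PPI_trip ht1 (step0PI (hyTripI H ht1) hP line h4 h4' h5 hpos)
  rw [hx'] at h7
  exact PPI_of_ATI hy h7

end step

end H659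

end Vale.Agent.P011.D4Y
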